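import Vale.Agent.P165.EX.Kempf.Instability
import Vale.Agent.P165.EX.Geo

/-!
# Limits of exterior powers of an irreducible group meet stable subspaces in their images

Over a proper field of any characteristic: if the group is irreducible, every limit `z` of multiples
of the `j`-th compounds maps every stable subspace `F` onto the part of its image inside `F`.
-/

namespace Vale.Agent.P165.EX.Kempf

open Matrix Finset Filter
open scoped Matrix.Norms.Elementwise MatrixGroups Topology

variable {k : Type} [Field k] {n j f : ℕ}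

theorem submatrix_diagonal_mul {ι : Type} [Fintype ι] [DecidableEq ι] (d : ι → k)
    (M : Matrix ι (Fin f) k) (S : Fin f → ι) :
    (diagonal d * M).submatrix S id = diagonal (fun t => d (S t)) * M.submatrix S id := by
  ext t i
  simp [submatrix, diagonal_mul]

/-- Some minor of a matrix with a left inverse is not zero. -/
theorem supp_of_leftInverse (A : Matrix (Fin f) (Sub n j) k) (N : Matrix (Sub n j) (Fin f) k)
    (h : A * N = 1) : (supp N).Nonempty := by
  let D : MultilinearMap k (fun _ : Fin f => Fin f → k) k :=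
    (Matrix.detRowAlternating (n := Fin f) (R := k)).toMultilinearMap
  have e : (A * N).det = D fun t => ∑ l, A t l • N l := by
    change D _ = D _
    congr 1
    funext t i
    simp [Matrix.mul_apply, Finset.sum_apply]
  have h1 : (A * N).det ≠ 0 := by rw [h, det_one]; exact one_ne_zero
  rw [e, MultilinearMap.map_sum] at h1
  obtain ⟨c, -, hc⟩ := exists_ne_zero_of_sum_ne_zero h1
  rw [MultilinearMap.map_smul_univ, smul_ne_zero_iff] at hc
  exact ⟨c, mem_supp.2 hc.2⟩

section Proper

variable {k : Type} [NontriviallyNormedField k] [ProperSpace k] {Γ : Type} [Group Γ]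

/-- In a limit of compounds of an irreducible group the image inside a stable subspace comes from
that subspace. -/
theorem inter_range_le (ρ : Γ →* SL(n, k))
    (hirr : ∀ W : Submodule k (Fin n → k),
      (∀ g, ∀ w ∈ W, (ρ g : Matrix (Fin n) (Fin n) k) *ᵥ w ∈ W) → W = ⊥ ∨ W = ⊤)
    (j : ℕ) {z : Matrix (Sub n j) (Sub n j) k}
    (hz : z ∈ closure {x | ∃ (c : k) (g : Γ), x = c • cm ρ j g})
    (F : Submodule k (Sub n j → k)) (hF : ∀ g, ∀ v ∈ F, cm ρ j g *ᵥ v ∈ F) :
    F ⊓ LinearMap.range z.mulVecLin ≤ F.map z.mulVecLin := by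
  have : FirstCountableTopology (Matrix (Sub n j) (Sub n j) k) :=
    inferInstanceAs (FirstCountableTopology (Sub n j → Sub n j → k))
  have : FirstCountableTopology (Matrix (Fin n) (Fin n) k) :=
    inferInstanceAs (FirstCountableTopology (Fin n → Fin n → k))
  classical
  obtain ⟨x, hx, hlim⟩ := mem_closure_iff_seq_limit.1 hz
  choose c g hcg using hx
  obtain ⟨C, hC, hpiv⟩ := exists_pivot (k := k) n
  choose L Li L' Li' a hdec hL hL' _ using fun m => hpiv (ρ (g m) : Matrix (Fin n) (Fin n) k)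
  -- a subsequence along which the factors converge
  have : ProperSpace (Matrix (Fin n) (Fin n) k) := FiniteDimensional.proper k _
  set B : Set (Matrix (Fin n) (Fin n) k) := Metric.closedBall 0 C
  have hB : IsCompact (((B ×ˢ B) ×ˢ B) ×ˢ B) :=
    (((isCompact_closedBall _ _).prod (isCompact_closedBall _ _)).prod
      (isCompact_closedBall _ _)).prod (isCompact_closedBall _ _)
  obtain ⟨⟨⟨⟨L₀, Li₀⟩, L₀'⟩, Li₀'⟩, -, φ, hφ, hsub⟩ := hB.tendsto_subseq
    (x := fun m => (((L m, Li m), L' m), Li' m)) fun m =>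
      ⟨⟨⟨mem_closedBall_zero_iff.2 (hL m).2.2.1, mem_closedBall_zero_iff.2 (hL m).2.2.2⟩,
        mem_closedBall_zero_iff.2 (hL' m).2.2.1⟩, mem_closedBall_zero_iff.2 (hL' m).2.2.2⟩
  rw [Prod.tendsto_iff, Prod.tendsto_iff, Prod.tendsto_iff] at hsub
  obtain ⟨⟨⟨tL, tLi⟩, tL'⟩, tLi'⟩ := hsub
  have tz : Tendsto (fun m => c (φ m) • cm ρ j (g (φ m))) atTop (𝓝 z) := by
    simpa [Function.comp_def, hcg] using hlim.comp hφ.tendsto_atTop
  have hinv : ∀ {X Y : ℕ → Matrix (Fin n) (Fin n) k} {X₀ Y₀}, Tendsto X atTop (𝓝 X₀) →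
      Tendsto Y atTop (𝓝 Y₀) → (∀ m, X m * Y m = 1) → X₀ * Y₀ = 1 := fun hX hY h =>
    tendsto_nhds_unique (hX.mul hY) (tendsto_const_nhds.congr fun m => (h m).symm)
  have hL₀ : L₀ * Li₀ = 1 := hinv tL tLi fun m => (hL (φ m)).1
  have hLi₀ : Li₀ * L₀ = 1 := hinv tLi tL fun m => (hL (φ m)).2.1
  have hL₀' : L₀' * Li₀' = 1 := hinv tL' tLi' fun m => (hL' (φ m)).1
  have hcmp : Continuous fun X : Matrix (Fin n) (Fin n) k => cmp j X :=
    continuous_matrix fun s t => (continuous_id.matrix_submatrix (emb s) (emb t)).matrix_det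
  -- the diagonal of the limit
  set p : Sub n j → k := fun s => (cmp j Li₀ * z * cmp j Li₀') s s with hp
  have hdiag : cmp j Li₀ * z * cmp j Li₀' = diagonal p := by
    have ht : Tendsto (fun m => cmp j (Li (φ m)) * (c (φ m) • cm ρ j (g (φ m))) *
        cmp j (Li' (φ m))) atTop (𝓝 (cmp j Li₀ * z * cmp j Li₀')) :=
      (((hcmp.tendsto _).comp tLi).mul tz).mul ((hcmp.tendsto _).comp tLi')
    ext s t
    rcases eq_or_ne s t with rfl | hst
    · rw [diagonal_apply_eq]
    rw [diagonal_apply_ne _ hst]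
    refine tendsto_nhds_unique ((((continuous_apply t).comp (continuous_apply s)).tendsto _).comp ht)
      (tendsto_const_nhds.congr fun m => ?_)
    change (0 : k) = (cmp j (Li (φ m)) * (c (φ m) • cm ρ j (g (φ m))) * cmp j (Li' (φ m))) s t
    rw [mul_smul_comm, smul_mul_assoc, Matrix.smul_apply, cm, hdec, ← cmp_mul, ← cmp_mul,
      ← Matrix.mul_assoc, ← Matrix.mul_assoc, (hL _).2.1, Matrix.one_mul, Matrix.mul_assoc,
      (hL' _).1, Matrix.mul_one, cmp_diagonal, diagonal_apply_ne _ hst, smul_zero]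
  have hzdec : z = cmp j L₀ * diagonal p * cmp j L₀' := by
    rw [← hdiag]
    simp only [Matrix.mul_assoc]
    rw [← cmp_mul, mul_eq_one_comm.1 hL₀', cmp_one, Matrix.mul_one, ← Matrix.mul_assoc,
      ← cmp_mul, hL₀, cmp_one, Matrix.one_mul]
  -- a basis of the subspace
  set f := Module.finrank k F with hf
  let b := Module.finBasis k F
  let N : Matrix (Sub n j) (Fin f) k := Matrix.of fun s i => (b i : Sub n j → k) s
  have hNmem : ∀ y, N *ᵥ y ∈ F := fun y => by
    have : N *ᵥ y = ∑ i, y i • (b i : Sub n j → k) := by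
      funext s
      simp [N, mulVec, dotProduct, Finset.sum_apply, mul_comm]
    rw [this]
    exact F.sum_mem fun i _ => F.smul_mem _ (b i).2
  have hNrep : ∀ v, ∀ hv : v ∈ F, N *ᵥ (fun i => b.repr ⟨v, hv⟩ i) = v := fun v hv => by
    have e := congrArg (fun w : F => (w : Sub n j → k)) (b.sum_repr ⟨v, hv⟩)
    simp only [Submodule.coe_sum, Submodule.coe_smul] at e
    funext s
    rw [← congrFun e s]
    simp [N, mulVec, dotProduct, Finset.sum_apply, mul_comm]
    rfl
  have hNinj : ∀ y, N *ᵥ y = 0 → y = 0 := fun y hy => by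
    have h := Fintype.linearIndependent_iff.1 b.linearIndependent y (Subtype.ext (by
      simp only [Submodule.coe_sum, Submodule.coe_smul, ZeroMemClass.coe_zero]
      funext s
      rw [← congrFun hy s]
      simp [N, mulVec, dotProduct, Finset.sum_apply, mul_comm]
      rfl))
    exact funext h
  obtain ⟨A, hA⟩ : ∃ A : Matrix (Fin f) (Sub n j) k, A * N = 1 := by
    obtain ⟨l, hl⟩ := (Matrix.mulVecLin N).exists_leftInverse_of_injective
      (LinearMap.ker_eq_bot'.2 fun y hy => hNinj y hy)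
    refine ⟨LinearMap.toMatrix' l, Matrix.toLin'.injective ?_⟩
    rw [Matrix.toLin'_mul, Matrix.toLin'_one, Matrix.toLin'_toMatrix']
    exact hl
  have hN := supp_of_leftInverse A N hA
  have hstab : ∀ h, ∃ E : Matrix (Fin f) (Fin f) k, E.det ≠ 0 ∧ cm ρ j h * N = N * E := by
    have hE : ∀ h, cm ρ j h * N = N * (A * (cm ρ j h * N)) := fun h => by
      refine Matrix.ext_of_mulVec_single fun i => ?_
      rw [← mulVec_mulVec, ← mulVec_mulVec, ← mulVec_mulVec, ← mulVec_mulVec]
      have hmem := hF h _ (hNmem (Pi.single i 1))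
      have e := hNrep _ hmem
      conv_rhs => rw [← e, mulVec_mulVec _ A, hA, one_mulVec]
      exact e.symm
    refine fun h => ⟨A * (cm ρ j h * N), fun h0 => ?_, hE h⟩
    have h2 : A * (cm ρ j h⁻¹ * N) * (A * (cm ρ j h * N)) = 1 := by
      rw [Matrix.mul_assoc A, Matrix.mul_assoc (cm ρ j h⁻¹), ← hE, ← Matrix.mul_assoc (cm ρ j h⁻¹),
        ← cm_mul, inv_mul_cancel, cm_one, Matrix.one_mul, hA]
    have := congrArg det h2
    rw [det_mul, h0, mul_zero, det_one] at this
    exact zero_ne_one this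
  choose E hE0 hE using hstab
  -- the minors
  set R : ℕ → (Fin f → Sub n j) → k := fun m S => ((cmp j (L' (φ m)) * N).submatrix S id).det
  set Q : ℕ → (Fin f → Sub n j) → k := fun m S => ((cmp j (Li (φ m)) * N).submatrix S id).det
  set R₀ : (Fin f → Sub n j) → k := fun S => ((cmp j L₀' * N).submatrix S id).det
  set Q₀ : (Fin f → Sub n j) → k := fun S => ((cmp j Li₀ * N).submatrix S id).det
  have hmin : ∀ S : Fin f → Sub n j, Continuous fun X : Matrix (Fin n) (Fin n) k =>
      ((cmp j X * N).submatrix S id).det := fun S =>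
    ((hcmp.matrix_mul continuous_const).matrix_submatrix S id).matrix_det
  have tR : ∀ S, Tendsto (fun m => R m S) atTop (𝓝 (R₀ S)) := fun S =>
    ((hmin S).tendsto _).comp tL'
  have tQ : ∀ S, Tendsto (fun m => Q m S) atTop (𝓝 (Q₀ S)) := fun S =>
    ((hmin S).tendsto _).comp tLi
  set χ : ℕ → (Fin f → Sub n j) → k := fun m S => ∏ t, ∏ i, a (φ m) (emb (S t) i)
  have hrel : ∀ m S, Q m S * (E (g (φ m))).det = χ m S * R m S := fun m S => by
    have e1 : cmp j (Li (φ m)) * N * E (g (φ m)) =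
        diagonal (fun s => ∏ i, a (φ m) (emb s i)) * (cmp j (L' (φ m)) * N) := by
      rw [Matrix.mul_assoc, ← hE, cm, hdec, ← cmp_diagonal]
      simp only [← Matrix.mul_assoc, ← cmp_mul]
      rw [(hL _).2.1, Matrix.one_mul, cmp_mul, Matrix.mul_assoc]
      congr! 3
    have e2 := congrArg (fun M => (M.submatrix S id).det) e1
    exact (det_mul _ _).symm.trans (e2.trans ((congrArg det (submatrix_diagonal_mul _ _ _)).trans
      ((det_mul _ _).trans (congrArg (· * R m S) det_diagonal))))
  -- one common non-zero minor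
  have key : ∃ S, R₀ S ≠ 0 ∧ Q₀ S ≠ 0 := by
    by_cases hn : n = 0
    · subst hn
      obtain ⟨S, hS⟩ := hN
      have e : ∀ X : Matrix (Fin 0) (Fin 0) k, cmp j X * N = N := fun X => by
        rw [Subsingleton.elim X 1, cmp_one, Matrix.one_mul]
      refine ⟨S, ?_, ?_⟩ <;> simpa [R₀, Q₀, e] using mem_supp.1 hS
    by_contra hno
    push Not at hno
    have ha0 : ∀ m i, a m i ≠ 0 := fun m i hi => by
      have h1 := (ρ (g m)).2
      rw [hdec, det_mul, det_mul, det_diagonal, prod_eq_zero (mem_univ i) hi, mul_zero,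
        zero_mul] at h1
      exact zero_ne_one h1
    set μ : ℕ → ℝ := fun m => (∑ i, Real.log ‖a (φ m) i‖) / n with hμ
    have hd0 : L₀.det ≠ 0 ∧ L₀'.det ≠ 0 :=
      ⟨(isUnit_det_of_right_inverse hL₀).ne_zero, (isUnit_det_of_right_inverse hL₀').ne_zero⟩
    have tμ : Tendsto μ atTop (𝓝 ((-Real.log ‖L₀.det‖ - Real.log ‖L₀'.det‖) / n)) := by
      have h1 := ((continuous_id.matrix_det.tendsto L₀).comp tL).norm.log (norm_ne_zero_iff.2 hd0.1)
      have h2 := ((continuous_id.matrix_det.tendsto L₀').comp tL').norm.log (norm_ne_zero_iff.2 hd0.2)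
      refine ((h1.neg.sub h2).div_const _).congr fun m => ?_
      simp only [hμ, Function.comp_apply, id]
      congr 1
      rw [← Real.log_prod fun i _ => norm_ne_zero_iff.2 (ha0 _ i)]
      have h3 : ‖(L (φ m)).det‖ * (∏ i, ‖a (φ m) i‖) * ‖(L' (φ m)).det‖ = 1 := by
        rw [← norm_prod, ← norm_mul, ← norm_mul, ← det_diagonal, ← det_mul, ← det_mul, ← hdec,
          (ρ (g (φ m))).2, norm_one]
      have u1 : ‖(L (φ m)).det‖ ≠ 0 :=
        norm_ne_zero_iff.2 (isUnit_det_of_right_inverse (hL _).1).ne_zero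
      have u2 : ‖(L' (φ m)).det‖ ≠ 0 :=
        norm_ne_zero_iff.2 (isUnit_det_of_right_inverse (hL' _).1).ne_zero
      have u3 : ∏ i, ‖a (φ m) i‖ ≠ 0 := prod_ne_zero_iff.2 fun i _ => norm_ne_zero_iff.2 (ha0 _ i)
      have h4 := congrArg Real.log h3
      rw [Real.log_mul (mul_ne_zero u1 u3) u2, Real.log_mul u1 u3, Real.log_one] at h4
      linarith
    set l : ℕ → Fin n → ℝ := fun m i => Real.log ‖a (φ m) i‖ - μ m with hl
    have hlsum : ∀ m, ∑ i, l m i = 0 := fun m => by
      simp only [hl, sum_sub_distrib, sum_const, card_univ, Fintype.card_fin, nsmul_eq_mul, hμ]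
      field_simp
      ring
    have hχ : ∀ m S, ‖χ m S‖ = Real.exp (mwt S (l m) + f * j * μ m) := fun m S => by
      have : mwt S (l m) + f * j * μ m = ∑ t : Fin f, ∑ i : Fin j,
          Real.log ‖a (φ m) (emb (S t) i)‖ := by
        simp [mwt, hl, sum_sub_distrib]
        ring
      rw [this, Real.exp_sum, norm_prod]
      refine prod_congr rfl fun t _ => ?_
      rw [Real.exp_sum, norm_prod]
      exact prod_congr rfl fun i _ => (Real.exp_log (norm_pos_iff.2 (ha0 _ _))).symm
    set ω := Real.exp (f * j * ((-Real.log ‖L₀.det‖ - Real.log ‖L₀'.det‖) / n))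
    have hω : 0 < ω := Real.exp_pos _
    have tω : Tendsto (fun m => Real.exp (f * j * μ m)) atTop (𝓝 ω) :=
      (Real.continuous_exp.tendsto _).comp (tμ.const_mul _)
    -- eventual bounds
    set δ : ℝ := (univ : Finset (Fin f → Sub n j)).inf' ⟨hN.choose, mem_univ _⟩ fun S =>
      min (if R₀ S = 0 then 1 else ‖R₀ S‖) (if Q₀ S = 0 then 1 else ‖Q₀ S‖) with hδdef
    have hδ : 0 < δ := by
      refine (Finset.lt_inf'_iff _).2 fun S _ => lt_min ?_ ?_ <;> split_ifs with h <;>
        first | exact one_pos | exact norm_pos_iff.2 h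
    have hδR : ∀ S, R₀ S ≠ 0 → δ ≤ ‖R₀ S‖ := fun S h => (Finset.inf'_le _ (mem_univ S)).trans
      ((min_le_left _ _).trans_eq (if_neg h))
    have hδQ : ∀ S, Q₀ S ≠ 0 → δ ≤ ‖Q₀ S‖ := fun S h => (Finset.inf'_le _ (mem_univ S)).trans
      ((min_le_right _ _).trans_eq (if_neg h))
    set MB : ℝ := 1 + ∑ S, ‖R₀ S‖ with hMB
    have hMB0 : 0 < MB := lt_of_lt_of_le one_pos
      (le_add_of_nonneg_right (sum_nonneg fun _ _ => norm_nonneg _))
    set K : ℝ := 2 * ω * MB / (δ / 2) with hK
    have hK0 : 0 < K := by positivity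
    set ε : ℝ := ω / 2 * (δ / 2) / K with hε
    have hev : ∀ᶠ m in atTop, (∀ S, R₀ S ≠ 0 → δ / 2 ≤ ‖R m S‖) ∧
        (∀ S, Q₀ S ≠ 0 → δ / 2 ≤ ‖Q m S‖) ∧ (∀ S, ‖R m S‖ ≤ MB) ∧
        (∀ S, Q₀ S = 0 → ‖Q m S‖ < ε) ∧
        ω / 2 ≤ Real.exp (f * j * μ m) ∧ Real.exp (f * j * μ m) ≤ 2 * ω := by
      refine (eventually_all.2 fun S => ?_).and ((eventually_all.2 fun S => ?_).and
        ((eventually_all.2 fun S => ?_).and ((eventually_all.2 fun S => ?_).and
          ((tω.eventually (Ici_mem_nhds (by linarith))).and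
            (tω.eventually (Iic_mem_nhds (by linarith)))))))
      · by_cases h : R₀ S = 0
        · exact Eventually.of_forall fun m h' => absurd h h'
        · exact ((tR S).norm.eventually (Ici_mem_nhds (by linarith [hδR S h]))).mono fun m hm _ => hm
      · by_cases h : Q₀ S = 0
        · exact Eventually.of_forall fun m h' => absurd h h'
        · exact ((tQ S).norm.eventually (Ici_mem_nhds (by linarith [hδQ S h]))).mono fun m hm _ => hm
      · refine (tR S).norm.eventually (Iic_mem_nhds ?_)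
        have := single_le_sum (f := fun S => ‖R₀ S‖) (fun _ _ => norm_nonneg _) (mem_univ S)
        linarith
      · by_cases h : Q₀ S = 0
        · refine ((tQ S).norm.eventually (Iio_mem_nhds ?_)).mono fun m hm _ => hm
          rw [h, norm_zero]
          positivity
        · exact Eventually.of_forall fun m h' => absurd h' h
    obtain ⟨m, hR, hQ, hRB, hQz, hlo, hhi⟩ := hev.exists
    have hirr' := fun W : Submodule k (Fin n → k) => hirr W
    let ρm : Γ →* Matrix (Fin n) (Fin n) k :=
      { toFun := fun h => (ρ h : Matrix (Fin n) (Fin n) k)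
        map_one' := coe_one ρ
        map_mul' := coe_mul ρ }
    obtain ⟨S, hS, hSw⟩ := exists_weight_nonneg ρm hirr' N hN (fun h => ⟨E h, hE0 h, hE h⟩) L₀'
      hd0.2 (l m) (hlsum m)
    obtain ⟨S', hS', hSw'⟩ := exists_weight_nonneg ρm hirr' N hN (fun h => ⟨E h, hE0 h, hE h⟩) Li₀
      (isUnit_det_of_right_inverse hLi₀).ne_zero (fun i => -1 * l m i)
      (by rw [← mul_sum, hlsum, mul_zero])
    rw [mwt_smul] at hSw'
    rw [mem_supp] at hS hS'
    have e1 := congrArg norm (hrel m S)
    have e2 := congrArg norm (hrel m S')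
    rw [norm_mul, norm_mul, hχ, Real.exp_add] at e1 e2
    set d := ‖(E (g (φ m))).det‖
    have hd : d ≤ K := by
      rw [hK, le_div_iff₀ (by positivity)]
      have h1 : Real.exp (mwt S' (l m)) ≤ 1 := Real.exp_le_one_iff.2 (by linarith)
      calc d * (δ / 2) ≤ d * ‖Q m S'‖ := mul_le_mul_of_nonneg_left (hQ S' hS') (norm_nonneg _)
        _ = Real.exp (mwt S' (l m)) * Real.exp (f * j * μ m) * ‖R m S'‖ := by rw [← e2, mul_comm]
        _ ≤ 1 * (2 * ω) * MB := mul_le_mul (mul_le_mul h1 hhi (Real.exp_pos _).le zero_le_one)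
            (hRB S') (norm_nonneg _) (by positivity)
        _ = 2 * ω * MB := by ring
    have hQ0 : Q₀ S = 0 := hno S hS
    have h3 : ω / 2 * (δ / 2) ≤ ‖Q m S‖ * d := by
      rw [e1]
      have h1 : 1 ≤ Real.exp (mwt S (l m)) := Real.one_le_exp hSw
      calc ω / 2 * (δ / 2) = 1 * (ω / 2) * (δ / 2) := by ring
        _ ≤ _ := mul_le_mul (mul_le_mul h1 hlo (by positivity) (Real.exp_pos _).le) (hR S hS)
            (by positivity) (by positivity)
    have h5 : ‖Q m S‖ * d < ε * K :=
      lt_of_le_of_lt (mul_le_mul_of_nonneg_left hd (norm_nonneg _))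
        (mul_lt_mul_of_pos_right (hQz S hQ0) hK0)
    rw [hε, div_mul_cancel₀ _ hK0.ne'] at h5
    linarith
  obtain ⟨S, hRS, hQS⟩ := key
  -- dimensions
  let J := {t : Fin f // p (S t) ≠ 0}
  let q : (Sub n j → k) →ₗ[k] (J → k) :=
    (LinearMap.funLeft k k fun t : J => S t.1).comp (cmp j Li₀).mulVecLin
  have hq : ∀ v (t : J), q v t = (cmp j Li₀ *ᵥ v) (S t.1) := fun v t => rfl
  have hzv : ∀ v, cmp j Li₀ *ᵥ (z *ᵥ v) = fun s => p s * (cmp j L₀' *ᵥ v) s := fun v => by
    rw [hzdec, mulVec_mulVec, ← Matrix.mul_assoc, ← Matrix.mul_assoc, ← cmp_mul, hLi₀, cmp_one,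
      Matrix.one_mul, ← mulVec_mulVec]
    funext s
    rw [mulVec_diagonal]
  have hlow : Module.finrank k (J → k) ≤ Module.finrank k (F.map z.mulVecLin) := by
    have hsurj : Function.Surjective (q.domRestrict (F.map z.mulVecLin)) := by
      intro y
      let y' : Fin f → k := fun t => if h : p (S t) ≠ 0 then y ⟨t, h⟩ / p (S t) else 0
      set M := (cmp j L₀' * N).submatrix S id
      have hM : IsUnit M.det := isUnit_iff_ne_zero.2 hRS
      refine ⟨⟨z *ᵥ (N *ᵥ (M⁻¹ *ᵥ y')), Submodule.mem_map_of_mem (hNmem _)⟩, funext fun t => ?_⟩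
      rw [LinearMap.domRestrict_apply, hq, hzv]
      have e : (cmp j L₀' *ᵥ (N *ᵥ (M⁻¹ *ᵥ y'))) (S t.1) = (M *ᵥ (M⁻¹ *ᵥ y')) t.1 := by
        rw [mulVec_mulVec]
        rfl
      simp only [e]
      rw [mulVec_mulVec _ M, mul_nonsing_inv _ hM, one_mulVec]
      simp only [y', dif_pos t.2]
      field_simp [t.2]
      rfl
    have h := (q.domRestrict (F.map z.mulVecLin)).finrank_range_le
    rwa [LinearMap.range_eq_top.2 hsurj, finrank_top] at h
  have hup : Module.finrank k (F ⊓ LinearMap.range z.mulVecLin : Submodule k (Sub n j → k)) ≤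
      Module.finrank k (J → k) := by
    refine LinearMap.finrank_le_finrank_of_injective
      (f := q.domRestrict (F ⊓ LinearMap.range z.mulVecLin)) ?_
    rw [← LinearMap.ker_eq_bot, LinearMap.ker_eq_bot']
    rintro ⟨v, hvF, w, rfl⟩ hv
    refine Subtype.ext ?_
    show z *ᵥ w = 0
    set M := (cmp j Li₀ * N).submatrix S id with hMdef
    have hM : IsUnit M.det := isUnit_iff_ne_zero.2 hQS
    have hy := hNrep _ hvF
    set y := fun i => b.repr ⟨z.mulVecLin w, hvF⟩ i
    have h1 : M *ᵥ y = 0 := funext fun t => by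
      show ((cmp j Li₀ * N) *ᵥ y) (S t) = 0
      rw [← mulVec_mulVec, hy, mulVecLin_apply, hzv]
      by_cases h : p (S t) = 0
      · simp [h]
      · have := congrFun hv ⟨t, h⟩
        rw [LinearMap.domRestrict_apply, hq] at this
        simp only [mulVecLin_apply] at this
        rw [hzv] at this
        exact this
    have h2 : y = 0 := by
      rw [← one_mulVec y, ← nonsing_inv_mul _ hM, ← mulVec_mulVec, h1, mulVec_zero]
    rw [h2, mulVec_zero] at hy
    exact hy.symm
  have hle : F.map z.mulVecLin ≤ F ⊓ LinearMap.range z.mulVecLin := by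
    rintro _ ⟨v, hv, rfl⟩
    refine ⟨?_, v, rfl⟩
    refine F.closed_of_finiteDimensional.mem_of_tendsto
      (((Continuous.matrix_mulVec continuous_id continuous_const).tendsto z).comp tz)
      (Eventually.of_forall fun m => ?_)
    simp only [Function.comp_apply, id, smul_mulVec]
    exact F.smul_mem _ (hF _ v hv)
  exact (Submodule.eq_of_le_of_finrank_le hle (hup.trans hlow)).ge

end Proper

end Vale.Agent.P165.EX.Kempf
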