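import Mathlib

/-!
# Bruhat decomposition for matrices, relative to weights of the coordinates

Every invertible matrix is a product of a matrix that does not lower the weights, a monomial
matrix and another matrix that does not lower the weights.
-/

namespace Vale.Agent.P165.EX.Kempf

open Matrix Finset

variable {k : Type} [Field k] {n : ℕ}

/-- Entries only from lower or equal weight to higher or equal weight. -/
def Upper (lam : Fin n → ℝ) (q : Matrix (Fin n) (Fin n) k) : Prop :=
  BlockTriangular q fun i => OrderDual.toDual (lam i)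

theorem Upper.le {lam : Fin n → ℝ} {q : Matrix (Fin n) (Fin n) k} (h : Upper lam q) {i l : Fin n}
    (hq : q i l ≠ 0) : lam l ≤ lam i := by
  by_contra hlt
  exact hq (h (OrderDual.toDual_lt_toDual.2 (not_le.1 hlt)))

/-- A monomial matrix. -/
def monomial (π : Equiv.Perm (Fin n)) (c : Fin n → k) : Matrix (Fin n) (Fin n) k :=
  Matrix.of fun i l => if π i = l then c i else 0

theorem monomial_ne {π : Equiv.Perm (Fin n)} {c : Fin n → k} {i l : Fin n}
    (h : monomial π c i l ≠ 0) : l = π i := by
  by_contra hne
  exact h (if_neg fun e => hne e.symm)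

/-- Elimination along the coordinates from the last row. -/
theorem exists_elim (g : Matrix (Fin n) (Fin n) k) (hg : g.det ≠ 0) : ∀ r : ℕ, r ≤ n →
    ∃ u v : Matrix (Fin n) (Fin n) k, BlockTriangular u id ∧ BlockTriangular v id ∧
      u.det = 1 ∧ v.det = 1 ∧ ∀ i : Fin n, n ≤ i.1 + r →
        ∃ p, (∀ l, (u * g * v) i l ≠ 0 → l = p) ∧ ∀ a, (u * g * v) a p ≠ 0 → a = i := by
  classical
  intro r
  induction r with
  | zero => exact fun _ => ⟨1, 1, blockTriangular_one, blockTriangular_one, det_one, det_one,
      fun i h => absurd h (by omega)⟩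
  | succ r ih =>
    intro hr
    obtain ⟨u, v, hu, hv, hu1, hv1, hdone⟩ := ih (Nat.le_of_succ_le hr)
    set M := u * g * v with hM
    set i₀ : Fin n := ⟨n - (r + 1), by omega⟩ with hi₀
    have hdet : M.det ≠ 0 := by rw [hM, det_mul, det_mul, hu1, hv1, one_mul, mul_one]; exact hg
    have hrow : ((univ : Finset (Fin n)).filter fun l => M i₀ l ≠ 0).Nonempty := by
      by_contra h
      refine hdet (det_eq_zero_of_row_eq_zero i₀ fun l => ?_)
      by_contra hl
      exact h ⟨l, mem_filter.2 ⟨mem_univ _, hl⟩⟩
    set p := ((univ : Finset (Fin n)).filter fun l => M i₀ l ≠ 0).min' hrow with hp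
    have hp0 : M i₀ p ≠ 0 := (mem_filter.1 (min'_mem _ hrow)).2
    have hpmin : ∀ l, M i₀ l ≠ 0 → p ≤ l := fun l hl => by
      rw [hp]; exact min'_le _ l (by simp [hl])
    set y : Fin n → k := fun l => if p < l then M i₀ l / M i₀ p else 0 with hy
    set x : Fin n → k := fun a => if a < i₀ then M a p / M i₀ p else 0 with hx
    set E₂ : Matrix (Fin n) (Fin n) k := 1 - vecMulVec (Pi.single p 1) y with hE₂
    set E₁ : Matrix (Fin n) (Fin n) k := 1 - vecMulVec x (Pi.single i₀ 1) with hE₁
    have hT₂ : BlockTriangular E₂ id := fun a l (hal : l < a) => by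
      rw [hE₂, Matrix.sub_apply, one_apply_ne hal.ne', vecMulVec_apply]
      rcases eq_or_ne a p with rfl | ha
      · simp [hy, not_lt.2 hal.le]
      · simp [ha]
    have hT₁ : BlockTriangular E₁ id := fun a l (hal : l < a) => by
      rw [hE₁, Matrix.sub_apply, one_apply_ne hal.ne', vecMulVec_apply]
      rcases eq_or_ne l i₀ with rfl | hl
      · simp [hx, not_lt.2 hal.le]
      · simp [hl]
    have hd₂ : E₂.det = 1 := by
      rw [det_of_isUpperTriangular hT₂]
      refine prod_eq_one fun a _ => ?_
      rw [hE₂, Matrix.sub_apply, one_apply_eq, vecMulVec_apply]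
      rcases eq_or_ne a p with rfl | ha
      · simp [hy]
      · simp [ha]
    have hd₁ : E₁.det = 1 := by
      rw [det_of_isUpperTriangular hT₁]
      refine prod_eq_one fun a _ => ?_
      rw [hE₁, Matrix.sub_apply, one_apply_eq, vecMulVec_apply]
      rcases eq_or_ne a i₀ with rfl | ha
      · simp [hx]
      · simp [ha]
    refine ⟨E₁ * u, v * E₂, hT₁.mul hu, hv.mul hT₂, by rw [det_mul, hd₁, hu1, one_mul],
      by rw [det_mul, hv1, hd₂, one_mul], ?_⟩
    have hM' : E₁ * u * g * (v * E₂) = E₁ * (M * E₂) := by
      simp only [hM, Matrix.mul_assoc]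
    set M' := M * E₂ with hM'def
    have e₂ : ∀ a l, M' a l = M a l - M a p * y l := fun a l => by
      rw [hM'def, hE₂, Matrix.mul_sub, Matrix.mul_one, Matrix.sub_apply, mul_vecMulVec,
        vecMulVec_apply, mulVec_single_one, Matrix.col_apply]
    have e₁ : ∀ a l, (E₁ * M') a l = M' a l - x a * M' i₀ l := fun a l => by
      rw [hE₁, Matrix.sub_mul, Matrix.one_mul, Matrix.sub_apply, vecMulVec_mul, vecMulVec_apply,
        single_one_vecMul, Matrix.row_apply]
    have hyp : y p = 0 := by simp [hy]
    have hrow₀ : ∀ l, l ≠ p → M' i₀ l = 0 := fun l hl => by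
      rw [e₂]
      by_cases h : p < l
      · simp only [hy, if_pos h]
        field_simp
        ring
      · have : M i₀ l = 0 := by
          by_contra h'
          exact h (lt_of_le_of_ne (hpmin l h') (Ne.symm hl))
        simp [hy, h, this]
    intro i hi
    rw [hM']
    rcases eq_or_ne i i₀ with rfl | hne
    · have hxi : x i₀ = 0 := by simp [hx]
      refine ⟨p, fun l hl => ?_, fun a ha => ?_⟩
      · by_contra hlp
        rw [e₁, hrow₀ l hlp, mul_zero, sub_zero] at hl
        exact hl rfl
      · by_contra hane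
        refine ha ?_
        rw [e₁, e₂, e₂, hyp, mul_zero, mul_zero, sub_zero, sub_zero]
        rcases lt_or_gt_of_ne hane with h | h
        · simp only [hx, if_pos h]
          rw [div_mul_cancel₀ _ hp0, sub_self]
        · have hx0 : x a = 0 := by simp [hx, not_lt.2 h.le]
          rw [hx0, zero_mul, sub_zero]
          obtain ⟨q, hq1, hq2⟩ := hdone a (by
            have : i₀.1 < a.1 := h
            simp only [hi₀] at this
            omega)
          by_contra h0
          have hq := hq1 p h0
          subst hq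
          exact hane (hq2 i₀ hp0).symm
    · have hgt : i₀ < i := by
        refine lt_of_le_of_ne (Fin.le_def.2 ?_) (Ne.symm hne)
        simp only [hi₀]
        omega
      obtain ⟨q, hq1, hq2⟩ := hdone i (by
        have : i₀.1 < i.1 := hgt
        simp only [hi₀] at this
        omega)
      have hqp : q ≠ p := fun e => hne (hq2 i₀ (e ▸ hp0)).symm
      have hip : M i p = 0 := by
        by_contra h
        exact hqp (hq1 p h).symm
      have hyq : y q = 0 := by
        have : M i₀ q = 0 := by
          by_contra h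
          exact hne (hq2 i₀ h).symm
        simp [hy, this]
      have hxi : x i = 0 := by simp [hx, not_lt.2 hgt.le]
      refine ⟨q, fun l hl => hq1 l ?_, fun a ha => hq2 a ?_⟩
      · rwa [e₁, e₂, hip, zero_mul, sub_zero, hxi, zero_mul, sub_zero] at hl
      · rwa [e₁, hrow₀ q hqp, mul_zero, sub_zero, e₂, hyq, mul_zero, sub_zero] at ha

/-- The decomposition. -/
theorem exists_bruhat (lam : Fin n → ℝ) (g : Matrix (Fin n) (Fin n) k) (hg : g.det ≠ 0) :
    ∃ (p q : Matrix (Fin n) (Fin n) k) (π : Equiv.Perm (Fin n)) (c : Fin n → k),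
      Upper lam p ∧ Upper lam q ∧ p.det ≠ 0 ∧ q.det ≠ 0 ∧ p * g * q = monomial π c := by
  classical
  set τ := Tuple.sort fun i => OrderDual.toDual (lam i) with hτ
  have hmono := Tuple.monotone_sort fun i => OrderDual.toDual (lam i)
  rw [← hτ] at hmono
  set g' := g.submatrix τ τ with hg'
  have hg'0 : g'.det ≠ 0 := by rw [hg', det_submatrix_equiv_self]; exact hg
  obtain ⟨u, v, hu, hv, hu1, hv1, hdone⟩ := exists_elim g' hg'0 n le_rfl
  choose f hf1 hf2 using fun i => hdone i (by omega)
  set M := u * g' * v with hM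
  have hM0 : M.det ≠ 0 := by rw [hM, det_mul, det_mul, hu1, hv1, one_mul, mul_one]; exact hg'0
  have hrow : ∀ i, M i (f i) ≠ 0 := fun i h => hM0 (det_eq_zero_of_row_eq_zero i fun l => by
    by_contra hl
    exact hl ((hf1 i l hl).symm ▸ h))
  have hinj : Function.Injective f := fun i i' e => hf2 i' i (e ▸ hrow i)
  let π₀ : Equiv.Perm (Fin n) := Equiv.ofBijective f (Finite.injective_iff_bijective.1 hinj)
  have hup : ∀ w : Matrix (Fin n) (Fin n) k, BlockTriangular w id →
      Upper lam (w.submatrix τ.symm τ.symm) := fun w hw a l hal => by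
    refine hw ?_
    show τ.symm l < τ.symm a
    by_contra hle
    have := hmono (not_lt.1 hle)
    simp only [Function.comp_apply, Equiv.apply_symm_apply] at this
    exact not_le.2 hal this
  refine ⟨u.submatrix τ.symm τ.symm, v.submatrix τ.symm τ.symm, (τ.symm.trans π₀).trans τ,
    fun i => M (τ.symm i) (f (τ.symm i)), hup u hu, hup v hv,
    by rw [det_submatrix_equiv_self, hu1]; exact one_ne_zero,
    by rw [det_submatrix_equiv_self, hv1]; exact one_ne_zero, ?_⟩
  have hgg : g = g'.submatrix τ.symm τ.symm := by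
    ext a l
    simp [hg']
  conv_lhs => rw [hgg]
  rw [submatrix_mul_equiv, submatrix_mul_equiv, ← hM]
  ext a l
  rw [submatrix_apply, monomial, Matrix.of_apply]
  set b := τ.symm a with hb
  have e' : ((τ.symm.trans π₀).trans τ) a = l ↔ f b = τ.symm l := by
    rw [Equiv.trans_apply, Equiv.trans_apply, ← Equiv.eq_symm_apply, ← hb]
    rfl
  by_cases e : f b = τ.symm l
  · rw [if_pos (e'.2 e), ← e]
  · rw [if_neg fun h => e (e'.1 h)]
    by_contra h
    exact e (hf1 b _ h).symm

end Vale.Agent.P165.EX.Kempf
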