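import Vale.Agent.P165.EX.Kempf.Bruhat
import Vale.Agent.P165.EX.Compound

/-!
# Kempf's instability theorem for exterior powers of the standard representation

A subspace of an exterior power which is stable under an irreducible group of matrices is
semistable: in every basis and for every weights of sum zero some non-zero maximal minor has
non-negative weight.
-/

namespace Vale.Agent.P165.EX.Kempf

open Matrix Finset
open scoped Classical

variable {k : Type} [Field k] {n j f : ℕ}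

/-- The weight of a choice of rows. -/
def mwt (S : Fin f → Sub n j) (lam : Fin n → ℝ) : ℝ := ∑ t, ∑ i, lam (emb (S t) i)

/-- The choices of rows with non-zero minor. -/
noncomputable def supp (N : Matrix (Sub n j) (Fin f) k) : Finset (Fin f → Sub n j) :=
  univ.filter fun S => (N.submatrix S id).det ≠ 0

theorem mem_supp {N : Matrix (Sub n j) (Fin f) k} {S : Fin f → Sub n j} :
    S ∈ supp N ↔ (N.submatrix S id).det ≠ 0 := by simp [supp]

theorem supp_mul_right (N : Matrix (Sub n j) (Fin f) k) {C : Matrix (Fin f) (Fin f) k}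
    (hC : C.det ≠ 0) : supp (N * C) = supp N := by
  ext S
  have e : (N * C).submatrix S id = N.submatrix S id * C := rfl
  rw [mem_supp, mem_supp, e, det_mul]
  simp [hC]

/-- A non-zero minor of a product comes from a non-zero minor of the right factor. -/
theorem exists_of_minor {ι : Type} [Fintype ι] (A : Matrix ι ι k) (N : Matrix ι (Fin f) k)
    (S : Fin f → ι) (h : ((A * N).submatrix S id).det ≠ 0) :
    ∃ c : Fin f → ι, (∀ t, A (S t) (c t) ≠ 0) ∧ (N.submatrix c id).det ≠ 0 := by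
  classical
  let D : MultilinearMap k (fun _ : Fin f => Fin f → k) k :=
    (Matrix.detRowAlternating (n := Fin f) (R := k)).toMultilinearMap
  have e : ((A * N).submatrix S id).det = D fun t => ∑ l, A (S t) l • N l := by
    change D _ = D _
    congr 1
    funext t i
    simp [Matrix.mul_apply, Finset.sum_apply]
  rw [e, MultilinearMap.map_sum] at h
  obtain ⟨c, -, hc⟩ := exists_ne_zero_of_sum_ne_zero h
  rw [MultilinearMap.map_smul_univ, smul_ne_zero_iff] at hc
  exact ⟨c, fun t => prod_ne_zero_iff.1 hc.1 t (mem_univ t), hc.2⟩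

/-- A non-zero entry of a compound pairs the coordinates by non-zero entries. -/
theorem exists_of_cmp (q : Matrix (Fin n) (Fin n) k) (s s' : Sub n j) (h : cmp j q s s' ≠ 0) :
    ∃ σ : Equiv.Perm (Fin j), ∀ i, q (emb s (σ i)) (emb s' i) ≠ 0 := by
  rw [cmp, Matrix.of_apply, det_apply] at h
  obtain ⟨σ, -, hσ⟩ := exists_ne_zero_of_sum_ne_zero h
  refine ⟨σ, fun i hi => hσ ?_⟩
  rw [prod_eq_zero (mem_univ i) hi, smul_zero]

/-- Both together. -/
theorem exists_source (q : Matrix (Fin n) (Fin n) k) (N : Matrix (Sub n j) (Fin f) k)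
    {S : Fin f → Sub n j} (hS : S ∈ supp (cmp j q * N)) :
    ∃ c ∈ supp N, ∃ σ : Fin f → Equiv.Perm (Fin j),
      ∀ t i, q (emb (S t) (σ t i)) (emb (c t) i) ≠ 0 := by
  obtain ⟨c, hA, hN⟩ := exists_of_minor (cmp j q) N S (mem_supp.1 hS)
  choose σ hσ using fun t => exists_of_cmp q _ _ (hA t)
  exact ⟨c, mem_supp.2 hN, σ, hσ⟩

theorem mwt_perm (S : Fin f → Sub n j) (σ : Fin f → Equiv.Perm (Fin j)) (lam : Fin n → ℝ) :
    ∑ t, ∑ i, lam (emb (S t) (σ t i)) = mwt S lam :=
  sum_congr rfl fun t _ => Equiv.sum_comp (σ t) fun i => lam (emb (S t) i)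

/-- A matrix which does not lower the weights does not lower the least weight. -/
theorem upper_le {lam : Fin n → ℝ} {q : Matrix (Fin n) (Fin n) k} (hq : Upper lam q)
    (N : Matrix (Sub n j) (Fin f) k) {μ : ℝ} (h : ∀ c ∈ supp N, μ ≤ mwt c lam) :
    ∀ S ∈ supp (cmp j q * N), μ ≤ mwt S lam := by
  intro S hS
  obtain ⟨c, hc, σ, hσ⟩ := exists_source q N hS
  refine (h c hc).trans ?_
  rw [← mwt_perm S σ, mwt]
  exact sum_le_sum fun t _ => sum_le_sum fun i _ => hq.le (hσ t i)

/-- A monomial matrix moves the weights. -/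
theorem monomial_le {lam : Fin n → ℝ} (π : Equiv.Perm (Fin n)) (a : Fin n → k)
    (N : Matrix (Sub n j) (Fin f) k) {μ : ℝ} (h : ∀ c ∈ supp N, μ ≤ mwt c lam) :
    ∀ S ∈ supp (cmp j (monomial π a) * N), μ ≤ mwt S (lam ∘ π) := by
  intro S hS
  obtain ⟨c, hc, σ, hσ⟩ := exists_source _ N hS
  refine (h c hc).trans (le_of_eq ?_)
  rw [← mwt_perm S σ, mwt]
  exact sum_congr rfl fun t _ => sum_congr rfl fun i _ =>
    congrArg lam (monomial_ne (hσ t i))

theorem mwt_smul (S : Fin f → Sub n j) (r : ℝ) (lam : Fin n → ℝ) :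
    mwt S (fun i => r * lam i) = r * mwt S lam := by
  simp [mwt, mul_sum]

theorem mwt_add (S : Fin f → Sub n j) (l l' : Fin n → ℝ) :
    mwt S (fun i => l i + l' i) = mwt S l + mwt S l' := by
  simp [mwt, sum_add_distrib]

theorem supp_nonempty {g : Matrix (Fin n) (Fin n) k} (hg : g.det ≠ 0)
    {N : Matrix (Sub n j) (Fin f) k} (h : (supp N).Nonempty) : (supp (cmp j g * N)).Nonempty := by
  obtain ⟨S, hS⟩ := h
  have : N = cmp j g⁻¹ * (cmp j g * N) := by
    rw [← Matrix.mul_assoc, ← cmp_mul, nonsing_inv_mul _ (isUnit_iff_ne_zero.2 hg), cmp_one,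
      Matrix.one_mul]
  rw [this] at hS
  obtain ⟨c, hc, -⟩ := exists_source _ _ hS
  exact ⟨c, hc⟩

variable {Γ : Type} [Group Γ]

/-- Kempf: a stable subspace, given by a basis, is semistable. -/
theorem exists_weight_nonneg (ρ : Γ →* Matrix (Fin n) (Fin n) k)
    (hirr : ∀ W : Submodule k (Fin n → k),
      (∀ γ, ∀ w ∈ W, ρ γ *ᵥ w ∈ W) → W = ⊥ ∨ W = ⊤)
    (N : Matrix (Sub n j) (Fin f) k) (hN : (supp N).Nonempty)
    (hstab : ∀ γ, ∃ C : Matrix (Fin f) (Fin f) k, C.det ≠ 0 ∧ cmp j (ρ γ) * N = N * C)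
    (g₀ : Matrix (Fin n) (Fin n) k) (hg₀ : g₀.det ≠ 0) (lam₀ : Fin n → ℝ)
    (hsum₀ : ∑ i, lam₀ i = 0) : ∃ S ∈ supp (cmp j g₀ * N), 0 ≤ mwt S lam₀ := by
  by_contra hcon
  push Not at hcon
  -- the compact set of normalised weights
  set K : Set (Fin n → ℝ) := {l | ∑ i, l i = 0 ∧ ∑ i, l i ^ 2 ≤ 1} with hK
  have hKc : IsCompact K := by
    refine (isCompact_univ_pi fun _ : Fin n => isCompact_Icc (a := (-1 : ℝ)) (b := 1)).of_isClosed_subset
      ?_ ?_
    · simp only [hK, Set.ofPred_and]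
      exact (isClosed_eq (by fun_prop) continuous_const).inter
        (isClosed_le (by fun_prop) continuous_const)
    · intro l hl i _
      have h1 : l i ^ 2 ≤ 1 :=
        (single_le_sum (f := fun i => l i ^ 2) (fun i _ => sq_nonneg _) (mem_univ i)).trans hl.2
      rwa [sq_le_one_iff_abs_le_one, abs_le] at h1
  have hK0 : (0 : Fin n → ℝ) ∈ K := by simp [hK]
  have hscale : ∀ l : Fin n → ℝ, ∑ i, l i = 0 → ∀ r : ℝ, r ^ 2 * ∑ i, l i ^ 2 ≤ 1 →
      (fun i => r * l i) ∈ K := fun l hl r hr => by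
    refine ⟨by rw [← mul_sum, hl, mul_zero], le_of_eq_of_le ?_ hr⟩
    rw [mul_sum]
    exact sum_congr rfl fun i _ => mul_pow _ _ _
  -- the best frame and weights
  set P : Finset (Finset (Fin f → Sub n j)) :=
    univ.filter fun T => ∃ g : Matrix (Fin n) (Fin n) k, g.det ≠ 0 ∧ supp (cmp j g * N) = T
    with hP
  have hbest : ∀ T : {T // T ∈ P}, ∃ l ∈ K, ∀ l' ∈ K, ∀ μ : ℝ, (∀ S ∈ T.1, μ ≤ mwt S l') →
      ∀ S ∈ T.1, μ ≤ mwt S l := by
    rintro ⟨T, hT⟩
    obtain ⟨g, hg, rfl⟩ := (mem_filter.1 hT).2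
    have hne := supp_nonempty hg hN
    obtain ⟨l, hl, hmax⟩ := hKc.exists_isMaxOn ⟨0, hK0⟩
      (f := fun l => (supp (cmp j g * N)).inf' hne fun S => mwt S l)
      (Continuous.finset_inf'_apply hne fun S _ => by unfold mwt; fun_prop).continuousOn
    refine ⟨l, hl, fun l' hl' μ hμ S hS => ?_⟩
    exact ((Finset.le_inf' hne _ hμ).trans (hmax hl')).trans (Finset.inf'_le _ hS)
  choose best hbestK hbest using hbest
  have hTne : ∀ T : {T // T ∈ P}, T.1.Nonempty := fun T => by
    obtain ⟨g, hg, e⟩ := (mem_filter.1 T.2).2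
    exact e ▸ supp_nonempty hg hN
  have hPne : P.Nonempty := ⟨_, mem_filter.2 ⟨mem_univ _, g₀, hg₀, rfl⟩⟩
  have : Nonempty {T // T ∈ P} := hPne.to_subtype
  obtain ⟨T₁, hT₁⟩ := Finite.exists_max fun T : {T // T ∈ P} =>
    T.1.inf' (hTne T) fun S => mwt S (best T)
  set μ := T₁.1.inf' (hTne T₁) fun S => mwt S (best T₁) with hμ
  -- nothing beats it
  have hmax : ∀ g : Matrix (Fin n) (Fin n) k, g.det ≠ 0 → ∀ l ∈ K, ∀ ν : ℝ,
      (∀ S ∈ supp (cmp j g * N), ν ≤ mwt S l) → ν ≤ μ := by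
    intro g hg l hl ν hν
    have hmem : supp (cmp j g * N) ∈ P := mem_filter.2 ⟨mem_univ _, g, hg, rfl⟩
    have h2 := hbest ⟨_, hmem⟩ l hl ν hν
    exact (Finset.le_inf' (hTne ⟨_, hmem⟩) _ h2).trans (hT₁ ⟨_, hmem⟩)
  have hμpos : 0 < μ := by
    set r : ℝ := (1 + ∑ i, lam₀ i ^ 2)⁻¹
    have hr : 0 < r := inv_pos.2 (add_pos_of_pos_of_nonneg one_pos (sum_nonneg fun i _ => sq_nonneg _))
    have hmem := hscale (fun i => -lam₀ i) (by rw [sum_neg_distrib, hsum₀, neg_zero]) r (by
      simp only [neg_sq]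
      have h1 : r * (1 + ∑ i, lam₀ i ^ 2) = 1 := inv_mul_cancel₀
        (add_pos_of_pos_of_nonneg one_pos (sum_nonneg fun i _ => sq_nonneg _)).ne'
      have h2 : r ≤ 1 := inv_le_one_of_one_le₀
        (le_add_of_nonneg_right (sum_nonneg fun i _ => sq_nonneg _))
      nlinarith [sum_nonneg fun i (_ : i ∈ univ) => sq_nonneg (lam₀ i)])
    have hne := supp_nonempty hg₀ hN
    refine lt_of_lt_of_le ?_ (hmax g₀ hg₀ _ hmem
      ((supp (cmp j g₀ * N)).inf' hne fun S => mwt S fun i => r * -lam₀ i) fun S hS =>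
      Finset.inf'_le (fun S => mwt S fun i => r * -lam₀ i) hS)
    rw [Finset.lt_inf'_iff hne]
    intro S hS
    rw [mwt_smul, show (fun i => -lam₀ i) = fun i => -1 * lam₀ i by simp, mwt_smul]
    have := hcon S hS
    nlinarith
  set lam := best T₁ with hlam
  obtain ⟨g₁, hg₁, hsupp₁⟩ := (mem_filter.1 T₁.2).2
  have hval : ∀ S ∈ supp (cmp j g₁ * N), μ ≤ mwt S lam := fun S hS =>
    Finset.inf'_le _ (hsupp₁ ▸ hS)
  -- the stabiliser keeps the coordinates of largest weight
  have hlam0 : ∃ i, lam i ≠ 0 := by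
    by_contra h
    push Not at h
    obtain ⟨S, hS⟩ := supp_nonempty hg₁ hN
    have := hval S hS
    simp only [mwt, h, sum_const_zero] at this
    linarith
  obtain ⟨i₀, hi₀⟩ := hlam0
  have : Nonempty (Fin n) := ⟨i₀⟩
  obtain ⟨imax, himax⟩ := Finite.exists_max lam
  let W : Submodule k (Fin n → k) :=
    { carrier := {v | ∀ i, lam i ≠ lam imax → v i = 0}
      add_mem' := fun {a b} ha hb i hi => by simp [ha i hi, hb i hi]
      zero_mem' := fun i _ => rfl
      smul_mem' := fun c a ha i hi => by simp [ha i hi] }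
  have hupW : ∀ q, Upper lam q → ∀ v ∈ W, q *ᵥ v ∈ W := by
    intro q hq v hv i hi
    show ∑ l, q i l * v l = 0
    refine sum_eq_zero fun l _ => ?_
    by_cases h : q i l = 0
    · simp [h]
    · have := hv l fun e => hi (le_antisymm (himax i) (e ▸ hq.le h))
      simp [this]
  have hkeep : ∀ γ, ∀ v ∈ W, (g₁ * ρ γ * g₁⁻¹) *ᵥ v ∈ W := by
    intro γ
    set h := g₁ * ρ γ * g₁⁻¹ with hh
    obtain ⟨C, hC, hCe⟩ := hstab γ
    have hρ : (ρ γ).det ≠ 0 := by
      intro h0
      have := congrArg det (map_mul ρ γ γ⁻¹)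
      rw [mul_inv_cancel, map_one, det_one, det_mul, h0, zero_mul] at this
      exact one_ne_zero this
    have hg2 : (g₁ * ρ γ).det ≠ 0 := by rw [det_mul]; exact mul_ne_zero hg₁ hρ
    have hval2 : ∀ S ∈ supp (cmp j (g₁ * ρ γ) * N), μ ≤ mwt S lam := by
      rw [cmp_mul, Matrix.mul_assoc, hCe, ← Matrix.mul_assoc, supp_mul_right _ hC]
      exact hval
    have hh0 : h.det ≠ 0 := by
      rw [hh, det_mul, det_nonsing_inv, Ring.inverse_eq_inv']
      exact mul_ne_zero hg2 (inv_ne_zero hg₁)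
    obtain ⟨p, q, π, a, hp, hq, hp0, hq0, hpq⟩ := exists_bruhat lam h hh0
    have hpu := isUnit_iff_ne_zero.2 hp0
    have hqu := isUnit_iff_ne_zero.2 hq0
    have hqi : Upper lam q⁻¹ := by
      have := q.invertibleOfIsUnitDet hqu
      exact blockTriangular_inv_of_blockTriangular hq
    have hpi : Upper lam p⁻¹ := by
      have := p.invertibleOfIsUnitDet hpu
      exact blockTriangular_inv_of_blockTriangular hp
    have hA := upper_le hp _ hval2
    have e : cmp j p * (cmp j (g₁ * ρ γ) * N) =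
        cmp j (monomial π a) * (cmp j q⁻¹ * (cmp j g₁ * N)) := by
      have e0 : p * (g₁ * ρ γ) = monomial π a * (q⁻¹ * g₁) := by
        rw [← hpq, hh]
        simp only [Matrix.mul_assoc]
        rw [← Matrix.mul_assoc q q⁻¹, mul_nonsing_inv _ hqu, Matrix.one_mul,
          nonsing_inv_mul _ (isUnit_iff_ne_zero.2 hg₁), Matrix.mul_one]
      simp only [← Matrix.mul_assoc, ← cmp_mul]
      rw [Matrix.mul_assoc p, e0]
      simp only [Matrix.mul_assoc]
    have hB := monomial_le π a _ (upper_le hqi _ hval)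
    rw [← e] at hB
    have hπ : lam ∘ π = lam := by
      by_contra hne
      have hpg : (p * (g₁ * ρ γ)).det ≠ 0 := by rw [det_mul]; exact mul_ne_zero hp0 hg2
      have hsupp := supp_nonempty hpg hN
      rw [cmp_mul, Matrix.mul_assoc] at hsupp
      obtain ⟨hl1, hl2⟩ := hbestK T₁
      rw [← hlam] at hl1 hl2
      have hl1' : ∑ i, lam (π i) = 0 := (Equiv.sum_comp π lam).trans hl1
      have hl2' : ∑ i, lam (π i) ^ 2 ≤ 1 :=
        le_of_eq_of_le (Equiv.sum_comp π fun i => lam i ^ 2) hl2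
      set m : Fin n → ℝ := fun i => lam i + lam (π i) with hm
      have hm2 : ∑ i, m i ^ 2 < 4 := by
        have h1 : 0 < ∑ i, (lam i - lam (π i)) ^ 2 := by
          obtain ⟨i, hi⟩ := Function.ne_iff.1 hne
          exact sum_pos' (fun i _ => sq_nonneg _)
            ⟨i, mem_univ i, pow_two_pos_of_ne_zero (sub_ne_zero.2 (Ne.symm hi))⟩
        have h2 : ∑ i, m i ^ 2 + ∑ i, (lam i - lam (π i)) ^ 2 =
            2 * (∑ i, lam i ^ 2 + ∑ i, lam (π i) ^ 2) := by
          rw [← sum_add_distrib, ← sum_add_distrib, mul_sum]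
          exact sum_congr rfl fun i _ => by rw [hm]; ring
        linarith
      have hm0 : 0 < ∑ i, m i ^ 2 := by
        obtain ⟨S, hS⟩ := hsupp
        by_contra hz
        have hz' : ∀ i, m i = 0 := fun i => by
          have := (single_le_sum (f := fun i => m i ^ 2) (fun i _ => sq_nonneg _)
            (mem_univ i)).trans (not_lt.1 hz)
          exact sq_eq_zero_iff.1 (le_antisymm this (sq_nonneg _))
        have h1 : mwt S m = mwt S lam + mwt S (lam ∘ π) := mwt_add S lam (lam ∘ π)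
        have h2 : mwt S m = 0 := by simp [mwt, hz']
        linarith [hA S hS, hB S hS]
      set s := Real.sqrt (∑ i, m i ^ 2)
      have hs : 0 < s := Real.sqrt_pos.2 hm0
      have hs2 : s < 2 := by
        rw [show (2 : ℝ) = Real.sqrt 4 by rw [show (4 : ℝ) = 2 ^ 2 by norm_num,
          Real.sqrt_sq zero_le_two]]
        exact Real.sqrt_lt_sqrt hm0.le hm2
      have hmem := hscale m (by rw [hm, sum_add_distrib, hl1, hl1', add_zero]) s⁻¹ (by
        rw [inv_pow, Real.sq_sqrt hm0.le, inv_mul_cancel₀ hm0.ne'])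
      have h3 := hmax _ hpg _ hmem (s⁻¹ * (2 * μ)) fun S hS => by
        rw [cmp_mul, Matrix.mul_assoc] at hS
        rw [mwt_smul]
        refine mul_le_mul_of_nonneg_left ?_ (inv_pos.2 hs).le
        rw [show mwt S m = mwt S lam + mwt S (lam ∘ π) from mwt_add S lam (lam ∘ π)]
        linarith [hA S hS, hB S hS]
      rw [← div_eq_inv_mul, div_le_iff₀ hs] at h3
      nlinarith
    intro v hv
    have e2 : h = p⁻¹ * (monomial π a * q⁻¹) := by
      rw [← hpq, Matrix.mul_assoc (p * h), mul_nonsing_inv _ hqu, Matrix.mul_one,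
        ← Matrix.mul_assoc, nonsing_inv_mul _ hpu, Matrix.one_mul]
    rw [e2, ← mulVec_mulVec, ← mulVec_mulVec]
    refine hupW _ hpi _ ?_
    intro i hi
    show ∑ l, monomial π a i l * _ = 0
    refine sum_eq_zero fun l _ => ?_
    by_cases hl : monomial π a i l = 0
    · simp [hl]
    · have := hupW _ hqi v hv l (by
        rw [monomial_ne hl, show lam (π i) = lam i from congrFun hπ i]; exact hi)
      simp [this]
  let W' : Submodule k (Fin n → k) := W.comap (Matrix.mulVecLin g₁)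
  have hu₁ := isUnit_iff_ne_zero.2 hg₁
  have hback : ∀ v, g₁ *ᵥ (g₁⁻¹ *ᵥ v) = v := fun v => by
    rw [mulVec_mulVec, mul_nonsing_inv _ hu₁, one_mulVec]
  rcases hirr W' fun γ w hw => by
    have := hkeep γ (g₁ *ᵥ w) hw
    simp only [W', Submodule.mem_comap, mulVecLin_apply]
    rwa [mulVec_mulVec, Matrix.mul_assoc _ g₁⁻¹, nonsing_inv_mul _ hu₁, Matrix.mul_one,
      ← mulVec_mulVec] at this with hW | hW
  · have hv : g₁⁻¹ *ᵥ Pi.single imax (1 : k) ∈ W' := by
      simp only [W', Submodule.mem_comap, mulVecLin_apply, hback]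
      intro i hi
      exact Pi.single_eq_of_ne (fun e : i = imax => hi (congrArg lam e)) _
    rw [hW, Submodule.mem_bot] at hv
    have h0 : (Pi.single imax (1 : k) : Fin n → k) = 0 := by
      rw [← hback (Pi.single imax 1), hv, mulVec_zero]
    exact one_ne_zero (Pi.single_eq_zero_iff.1 h0)
  · have hall : ∀ i, lam i = lam imax := fun i => by
      by_contra hi
      have hv : g₁⁻¹ *ᵥ Pi.single i (1 : k) ∈ W' := hW ▸ Submodule.mem_top
      simp only [W', Submodule.mem_comap, mulVecLin_apply, hback] at hv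
      simpa using hv i hi
    have h1 := (hbestK T₁).1
    rw [← hlam, sum_congr rfl fun i _ => hall i, sum_const, card_univ, Fintype.card_fin,
      nsmul_eq_mul, mul_eq_zero] at h1
    rcases h1 with h1 | h1
    · exact i₀.pos.ne' (Nat.cast_eq_zero.1 h1)
    · exact hi₀ ((hall i₀).trans h1)

end Vale.Agent.P165.EX.Kempf
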